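import Vale.Agent.P146.H357.Law

/-!
# P150: the bad mass at one regular scale

The form of `Vale.Agent.P146.H357.bad_le` with an exponentially small error in the lower bound of
the mean of the gap (penalty half as large as the decay rate of the moment of the small mass).
-/

open MeasureTheory ProbabilityTheory Set

namespace Vale.Agent.P146.H357.B6

open Vale.Agent.P146 Vale.Agent.P146.H357
open Vale.Agent.P157.Lv Vale.Agent.P146.H425 Vale.Agent.P146.H605 Vale.Agent.P146.H605.Gauge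

variable {n : ℕ} {β : ℝ}

/-- the mean of the gap, with a small error -/
theorem EY_ge {x x' ε θ δ : ℝ} (hx' : 0 < x') (hx1 : x' ≤ 1) (hδ : 0 ≤ δ)
    (h : P2 n β x x' ε ≤ δ * Real.exp (-(x' * θ))) :
    θ - δ / x' ≤ EY n β x ε θ := by
  have hZ := Zx_pos (n := n) (β := β) x
  have h2n : (0 : ℝ) < 2 ^ n := by positivity
  have h0 := int_q0 (n := n) (β := β) x
  have hq : 0 < ∫ g, gibbs n β g 1 * Real.exp (x * freeEnergy n β g) ∂(gI (Pair n)) := by
    rw [← disorder_eq]
    by_contra hc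
    have := mul_nonpos_of_nonneg_of_nonpos h2n.le (not_lt.1 hc)
    linarith
  obtain ⟨q, hqd⟩ : ∃ q, q = ∫ g, gibbs n β g 1 * Real.exp (x * freeEnergy n β g)
    ∂(disorder n) := ⟨_, rfl⟩
  rw [← hqd] at h0
  have egap : EG fun g : Pair n → ℝ => freeEnergy n β g -
      Fp n β (fun σ => -θ * ps n ε σ) g := eg_free.sub (lip_Fp _).eg
  have e3 : EG fun g : Pair n → ℝ => gibbs n β g 1 * Real.exp (x * freeEnergy n β g) *
      Real.exp (-x' * (freeEnergy n β g - Fp n β (fun σ => -θ * ps n ε σ) g)) := by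
    have hl : Lip fun g : Pair n → ℝ => freeEnergy n β g -
      Fp n β (fun σ => -θ * ps n ε σ) g := by
      have := (lip_F (n := n) (β := β)).add ((lip_Fp (n := n) (β := β)
        (fun σ => -θ * ps n ε σ)).const_mul (-1))
      convert this using 2
      ring
    exact (eg_q0 x).mul (hl.exp_eg (-x'))
  have h1 := jensen_tilt (κ := Pair n)
    (q := fun g => gibbs n β g 1 * Real.exp (x * freeEnergy n β g))
    (t := fun g => -x' * (freeEnergy n β g - Fp n β (fun σ => -θ * ps n ε σ) g))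
    (eg_q0 x) (fun g => mul_nonneg (gibbs_nonneg β g 1) (Real.exp_pos _).le) hq
    (egap.const_mul _) e3
  have e4 : ∫ g, gibbs n β g 1 * Real.exp (x * freeEnergy n β g) *
      (-x' * (freeEnergy n β g - Fp n β (fun σ => -θ * ps n ε σ) g)) ∂(gI (Pair n)) =
      -x' * ∫ g, gibbs n β g 1 * Real.exp (x * freeEnergy n β g) *
      (freeEnergy n β g - Fp n β (fun σ => -θ * ps n ε σ) g) ∂(disorder n) := by
    rw [← integral_const_mul, disorder_eq]
    exact integral_congr_ae (Filter.Eventually.of_forall fun g => by simp only; ring)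
  have e5 : ∫ g, gibbs n β g 1 * Real.exp (x * freeEnergy n β g) *
      Real.exp (-x' * (freeEnergy n β g - Fp n β (fun σ => -θ * ps n ε σ) g))
        ∂(gI (Pair n)) ≤
      ∫ g, gibbs n β g 1 * Real.exp (x * freeEnergy n β g) *
        (p2 n β ε g 1 ^ x' + Real.exp (-(x' * θ))) ∂(gI (Pair n)) := by
    refine integral_mono e3.integrable
      ((eg_q0 x).mul ((eg_p2 ε hx' 1).add (EG.const _))).integrable fun g => ?_
    simp only
    refine mul_le_mul_of_nonneg_left ?_ (mul_nonneg (gibbs_nonneg β g 1) (Real.exp_pos _).le)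
    have h6 := exp_gap_le (β := β) ε θ g
    have h7 : Real.exp (-x' * (freeEnergy n β g - Fp n β (fun σ => -θ * ps n ε σ) g)) =
        Real.exp (-(freeEnergy n β g - Fp n β (fun σ => -θ * ps n ε σ) g)) ^ x' := by
      rw [← Real.exp_mul]
      congr 1
      ring
    have h8 : Real.exp (-(x' * θ)) = Real.exp (-θ) ^ x' := by
      rw [← Real.exp_mul]
      congr 1
      ring
    rw [h7, h8]
    exact (Real.rpow_le_rpow (Real.exp_pos _).le h6 hx'.le).trans
      (rpow_add_le (p2_nonneg ε g 1) (Real.exp_pos _).le hx'.le hx1)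
  have e6 : ∫ g, gibbs n β g 1 * Real.exp (x * freeEnergy n β g) *
        (p2 n β ε g 1 ^ x' + Real.exp (-(x' * θ))) ∂(gI (Pair n)) =
      (∫ g, gibbs n β g 1 * Real.exp (x * freeEnergy n β g) * p2 n β ε g 1 ^ x'
        ∂(disorder n)) + Real.exp (-(x' * θ)) * q := by
    simp_rw [mul_add]
    rw [integral_add ((eg_q0 x).mul (eg_p2 ε hx' 1)).integrable
      ((eg_q0 x).mul (EG.const _)).integrable, integral_mul_const, hqd, disorder_eq, mul_comm
      (Real.exp (-(x' * θ)))]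
  rw [e4] at h1
  have h9 := h1.trans (e5.trans_eq e6)
  rw [← disorder_eq, ← hqd] at h9
  have h10 := P2_eq (n := n) (β := β) x ε hx'
  have h11 := mul_le_mul_of_nonneg_left h9 h2n.le
  rw [mul_add, ← h10, ← mul_assoc, h0] at h11
  have e7 : (2 : ℝ) ^ n * (Real.exp (-(x' * θ)) * q) = Real.exp (-(x' * θ)) * Zx n β x := by
    rw [← h0]; ring
  rw [e7] at h11
  have e8 : -x' * (∫ g, gibbs n β g 1 * Real.exp (x * freeEnergy n β g) *
      (freeEnergy n β g - Fp n β (fun σ => -θ * ps n ε σ) g) ∂(disorder n)) / q =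
      -x' * EY n β x ε θ := by
    unfold EY
    have hq0 : q ≠ 0 := by rw [hqd]; exact hq.ne'
    rw [← h0]
    field_simp
  rw [e8] at h11
  have h12 : Real.exp (-x' * EY n β x ε θ) ≤ (1 + δ) * Real.exp (-(x' * θ)) := by
    have h13 := mul_le_mul_of_nonneg_right h hZ.le
    have h14 : Zx n β x * Real.exp (-x' * EY n β x ε θ) ≤
        Zx n β x * ((1 + δ) * Real.exp (-(x' * θ))) := by linarith
    exact le_of_mul_le_mul_left h14 hZ
  have h15 := Real.log_le_log (Real.exp_pos _) h12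
  rw [Real.log_exp, Real.log_mul (by linarith) (Real.exp_pos _).ne', Real.log_exp] at h15
  have h16 : Real.log (1 + δ) ≤ δ := by
    have := Real.log_le_sub_one_of_pos (show 0 < 1 + δ by linarith)
    linarith
  have e9 : θ - δ / x' = (x' * θ - δ) / x' := by field_simp
  rw [e9, div_le_iff₀ hx']
  linarith

/-- **Most configurations have a small `p₂`**, from a lower bound of the mean of the gap. -/
theorem bad_le {x ε θ θ1 D : ℝ} (h1 : 0 < θ1) (h2 : θ1 < θ) (hY : θ - D ≤ EY n β x ε θ) :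
    ∫ g, ∑ σ : Fin n → ℤˣ, gibbs n β g σ *
        (if 1 ≤ p2 n β ε g σ * (Real.exp θ1 - 1) then (1 : ℝ) else 0) ∂(disorder n) ≤
      2 * (θ1 / θ * (D + (Lg n β (2 * x) - 2 * Lg n β x))) := by
  obtain ⟨K, hK⟩ : ∃ K, K = D + (Lg n β (2 * x) - 2 * Lg n β x) := ⟨_, rfl⟩
  have hθ : 0 < θ := h1.trans h2
  have hJ : θ1 / θ * (θ - D - (Lg n β (2 * x) - 2 * Lg n β x)) ≤
      Real.log (Jt n β ε θ1) := by
    have h3 := J_lower (n := n) (β := β) x ε θ
    have h5 := EF_le (n := n) (β := β) x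
    have h6 := J_conc (n := n) (β := β) ε h1 h2
    have h7 : 0 ≤ θ1 / θ := (div_pos h1 (h1.trans h2)).le
    have h8 : θ - D - (Lg n β (2 * x) - 2 * Lg n β x) ≤
        Real.log (Jt n β ε θ) := by linarith
    exact (mul_le_mul_of_nonneg_left h8 h7).trans h6
  have e1 : θ1 / θ * (θ - D - (Lg n β (2 * x) - 2 * Lg n β x)) =
      θ1 - θ1 / θ * K := by
    rw [hK]
    field_simp
    ring
  rw [e1] at hJ
  rw [← hK]
  have hJp := Jt_pos (n := n) (β := β) ε θ1
  have h3 : 1 - θ1 / θ * K ≤ Real.exp (-θ1) * Jt n β ε θ1 := by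
    have h4 : Real.exp (θ1 - θ1 / θ * K) ≤ Jt n β ε θ1 := by
      rw [← Real.exp_log hJp]
      exact Real.exp_le_exp.2 hJ
    have h5 := mul_le_mul_of_nonneg_left h4 (Real.exp_pos (-θ1)).le
    rw [← Real.exp_add] at h5
    have h6 := Real.add_one_le_exp (-θ1 + (θ1 - θ1 / θ * K))
    linarith
  have hE1 : 0 < Real.exp θ1 - 1 := by linarith [Real.add_one_lt_exp h1.ne']
  have hpt : ∀ g : Pair n → ℝ, ∀ σ : Fin n → ℤˣ,
      (if 1 ≤ p2 n β ε g σ * (Real.exp θ1 - 1) then (1 : ℝ) else 0) ≤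
        2 * (1 - Real.exp (-θ1) * (Dn n β ε θ1 g σ)⁻¹) := by
    intro g σ
    have hp0 := p2_nonneg (β := β) ε g σ
    obtain ⟨u, hu⟩ : ∃ u, u = p2 n β ε g σ * (Real.exp θ1 - 1) := ⟨_, rfl⟩
    have hu0 : 0 ≤ u := by rw [hu]; positivity
    have e2 : Real.exp (-θ1) * (Dn n β ε θ1 g σ)⁻¹ = (1 + u)⁻¹ := by
      have e3 : 1 + u = Real.exp θ1 * Dn n β ε θ1 g σ := by
        rw [hu]
        unfold Dn
        have e4 : Real.exp θ1 * Real.exp (-θ1) = 1 := by
          rw [← Real.exp_add, add_neg_cancel, Real.exp_zero]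
        linear_combination (1 - p2 n β ε g σ) * (-e4)
      rw [e3, mul_inv, Real.exp_neg]
    rw [e2, ← hu]
    have e5 : 1 - (1 + u)⁻¹ = u / (1 + u) := by
      field_simp
      ring
    rw [e5]
    split_ifs with h
    · rw [mul_div_assoc', le_div_iff₀ (by linarith)]
      linarith
    · positivity
  have hI : ∀ σ : Fin n → ℤˣ, Integrable (fun g : Pair n → ℝ => gibbs n β g σ *
      (2 * (1 - Real.exp (-θ1) * (Dn n β ε θ1 g σ)⁻¹))) (disorder n) := by
    intro σ
    have i1 := ((integrable_gibbs (n := n) β σ).sub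
      ((int_gD (n := n) (β := β) ε θ1 σ).const_mul (Real.exp (-θ1)))).const_mul 2
    refine i1.congr (Filter.Eventually.of_forall fun g => ?_)
    simp only [Pi.sub_apply]
    ring
  have hmeas : ∀ σ : Fin n → ℤˣ, Measurable fun g : Pair n → ℝ =>
      (if 1 ≤ p2 n β ε g σ * (Real.exp θ1 - 1) then (1 : ℝ) else 0) := by
    intro σ
    refine Measurable.ite ?_ measurable_const measurable_const
    exact measurableSet_le measurable_const ((cont_p2 ε σ).measurable.mul_const _)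
  have hI1 : ∀ σ : Fin n → ℤˣ, Integrable (fun g : Pair n → ℝ => gibbs n β g σ *
      (if 1 ≤ p2 n β ε g σ * (Real.exp θ1 - 1) then (1 : ℝ) else 0)) (disorder n) := by
    intro σ
    refine Integrable.of_bound ((continuous_gibbs β σ).measurable.mul
      (hmeas σ)).aestronglyMeasurable 1 (Filter.Eventually.of_forall fun g => ?_)
    rw [Real.norm_eq_abs, abs_mul, abs_of_nonneg (gibbs_nonneg β g σ)]
    have h7 := gibbs_le_one β g σ
    have h8 := gibbs_nonneg β g σ
    split_ifs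
    · simpa using h7
    · simp
  calc ∫ g, ∑ σ : Fin n → ℤˣ, gibbs n β g σ *
        (if 1 ≤ p2 n β ε g σ * (Real.exp θ1 - 1) then (1 : ℝ) else 0) ∂(disorder n)
      ≤ ∫ g, ∑ σ : Fin n → ℤˣ, gibbs n β g σ *
          (2 * (1 - Real.exp (-θ1) * (Dn n β ε θ1 g σ)⁻¹)) ∂(disorder n) := by
        refine integral_mono (integrable_finsetSum _ fun σ _ => hI1 σ)
          (integrable_finsetSum _ fun σ _ => hI σ) fun g => ?_
        simp only
        exact Finset.sum_le_sum fun σ _ =>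
          mul_le_mul_of_nonneg_left (hpt g σ) (gibbs_nonneg β g σ)
    _ = 2 * (1 - Real.exp (-θ1) * Jt n β ε θ1) := by
        have e6 : ∀ g : Pair n → ℝ, ∑ σ : Fin n → ℤˣ, gibbs n β g σ *
            (2 * (1 - Real.exp (-θ1) * (Dn n β ε θ1 g σ)⁻¹)) =
            2 * (1 - Real.exp (-θ1) * ∑ σ : Fin n → ℤˣ, gibbs n β g σ *
              (Dn n β ε θ1 g σ)⁻¹) := by
          intro g
          have e7 : ∀ σ : Fin n → ℤˣ, gibbs n β g σ *
              (2 * (1 - Real.exp (-θ1) * (Dn n β ε θ1 g σ)⁻¹)) =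
              2 * gibbs n β g σ - 2 * Real.exp (-θ1) *
                (gibbs n β g σ * (Dn n β ε θ1 g σ)⁻¹) := fun σ => by ring
          simp_rw [e7]
          rw [Finset.sum_sub_distrib, ← Finset.mul_sum, ← Finset.mul_sum, sum_gibbs]
          ring
        simp_rw [e6]
        rw [integral_const_mul, integral_sub (integrable_const _)
          ((integrable_finsetSum _ fun σ _ => int_gD ε θ1 σ).const_mul _),
          integral_const_mul]
        simp [Jt]
    _ ≤ 2 * (θ1 / θ * K) := by linarith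

/-- **The bad mass at one regular scale `x`.** -/
theorem bad_scale (hn : 1 ≤ n) (hβ : 0 < β) {c x θ1 ε : ℝ} (hx : 0 < x) (hx1 : x ≤ 1)
    {κ : ℝ → ℝ} (hκ : ∀ y, κ y =
      Real.log (∫ g, Real.exp (y * (freeEnergy n β g - c)) ∂(disorder n)))
    (hpos : 0 < κ x) (h8 : 8 * κ (x / 2) ≤ κ x) (h4096 : κ (2 * x) ≤ 4096 * κ x)
    (hε : β ^ 2 * x * n * ε ^ 2 ≤ κ x) (h1 : 0 < θ1) (h2 : θ1 < κ x / (2 * x))
    (hexp : 8 * Real.exp (-(κ x / 4)) ≤ κ x * x) :
    ∫ g, ∑ σ : Fin n → ℤˣ, gibbs n β g σ *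
        (if 1 ≤ p2 n β ε g σ * (Real.exp θ1 - 1) then (1 : ℝ) else 0)
          ∂(disorder n) ≤ θ1 * (20000 * x) := by
  have hL : ∀ y, Lg n β y = c * y + κ y := fun y => by rw [hκ]; exact Lg_eq y c
  obtain ⟨N, hN⟩ : ∃ N, N = κ x := ⟨_, rfl⟩
  rw [← hN] at hpos h8 h4096 hε h2 hexp
  obtain ⟨θ, hθ⟩ : ∃ θ, θ = N / (2 * x) := ⟨_, rfl⟩
  have hθp : 0 < θ := by rw [hθ]; positivity
  have hxθ : x * θ = N / 2 := by rw [hθ]; field_simp
  rw [← hθ] at h2
  obtain ⟨δ, hδ⟩ : ∃ δ, δ = Real.exp (-(N / 4)) := ⟨_, rfl⟩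
  have hδ0 : 0 < δ := by rw [hδ]; exact Real.exp_pos _
  rw [← hδ] at hexp
  have hP : P2 n β x (x / 2) ε ≤ δ * Real.exp (-(x / 2 * θ)) := by
    have e0 : x / 2 * θ = N / 4 := by linarith
    rw [e0, hδ, ← Real.exp_add]
    refine (P2_le hn (by linarith) (by linarith) hx1).trans (Real.exp_le_exp.2 ?_)
    have e7 : x - x / 2 = x / 2 := by ring
    rw [e7, hL, hL, ← hN]
    have e8 : β ^ 2 * (x / 2) * n * ε ^ 2 / 2 ≤ N / 4 := by linarith
    linarith
  have hY := EY_ge (n := n) (β := β) (x := x) (x' := x / 2) (ε := ε) (θ := θ) (δ := δ)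
    (by linarith) (by linarith) hδ0.le hP
  refine (bad_le h1 h2 hY).trans ?_
  have e9 : Lg n β (2 * x) - 2 * Lg n β x ≤ 4096 * N := by
    rw [hL, hL]
    linarith
  have e10 : δ / (x / 2) ≤ N / 4 := by
    rw [div_le_iff₀ (by linarith)]
    linarith
  have h3 : 0 ≤ θ1 / θ := by positivity
  calc 2 * (θ1 / θ * (δ / (x / 2) + (Lg n β (2 * x) - 2 * Lg n β x)))
      ≤ 2 * (θ1 / θ * (N / 4 + 4096 * N)) := by gcongr
    _ = θ1 * (16385 * x) := by
        rw [hθ]
        field_simp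
        ring
    _ ≤ θ1 * (20000 * x) := by
        refine mul_le_mul_of_nonneg_left ?_ h1.le
        linarith

end Vale.Agent.P146.H357.B6
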