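import Vale.Agent.P150.H281.Pig
import Vale.Agent.P150.H281.LowB

/-!
# P150: the bad mass down to the scale `n ^ (-1/6)`, up to powers of `log n`
-/

open MeasureTheory ProbabilityTheory Set Filter Topology

namespace Vale.Agent.P146.H357.B6

open Vale.Agent.P146 Vale.Agent.P146.H357
open Vale.Agent.P150.H281 Vale.Agent.P157.Lv Vale.Agent.P146.H425 Vale.Agent.P146.H605 Vale.Agent.P146.H605.Gauge

variable {n : ℕ} {β : ℝ}

/-- the moment law up to powers of `log n`, down to `n ^ (-1/6)` -/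
def MomL (β : ℝ) : Prop := ∃ (c : ℕ → ℝ) (C : ℝ), 1 ≤ C ∧ ∀ᶠ n : ℕ in atTop,
  ∀ x : ℝ, Real.log n ^ C / (n : ℝ) ^ (1 / 6 : ℝ) ≤ x → x ≤ 1 →
    n * x ^ 6 / Real.log n ^ C ≤
      Real.log (∫ g, Real.exp (x * (freeEnergy n β g - c n)) ∂(disorder n)) ∧
    Real.log (∫ g, Real.exp (x * (freeEnergy n β g - c n)) ∂(disorder n)) ≤
      C * (n * x ^ 6)

/-- the mean bad mass -/
noncomputable def mBad (n : ℕ) (β s w : ℝ) : ℝ := ∫ g, ∑ σ : Fin n → ℤˣ, gibbs n β g σ *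
  (if Real.exp (-w) < p2 n β s g σ then (1 : ℝ) else 0) ∂(disorder n)

lemma mBad_le_one (s w : ℝ) : mBad n β s w ≤ 1 := by
  unfold mBad
  have hP : IsProbabilityMeasure (disorder n) := by unfold disorder; infer_instance
  have h1 : ∫ g, ∑ σ : Fin n → ℤˣ, gibbs n β g σ *
      (if Real.exp (-w) < p2 n β s g σ then (1 : ℝ) else 0) ∂(disorder n) ≤
      ∫ _g : Pair n → ℝ, (1 : ℝ) ∂(disorder n) := by
    refine integral_mono
      (int_gs (f := fun σ g => if Real.exp (-w) < p2 n β s g σ then (1 : ℝ) else 0)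
        (fun σ => meas1 _ _ σ) fun σ g => by split_ifs <;> norm_num) (integrable_const _)
      fun g => ?_
    simp only
    refine (Finset.sum_le_sum fun σ _ => mul_le_of_le_one_right (gibbs_nonneg β g σ)
      (?_ : _ ≤ (1 : ℝ))).trans (sum_gibbs (n := n) (β := β) g).le
    split_ifs <;> norm_num
  refine h1.trans (le_of_eq ?_)
  simp

/-- the bad mass at one size `n` -/
theorem mBad_n (hn : 1 ≤ n) (hβ : 0 < β) {c₀ C s w Z : ℝ} (hC : 1 ≤ C)
    (hZ : 40000 ≤ Z) (hZC : 16 * C ≤ Z) (hZβ : β ^ 2 ≤ Z) (hZn : Real.log n ≤ Z)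
    (hm : ∀ x : ℝ, Z / (n : ℝ) ^ (1 / 6 : ℝ) ≤ x → x ≤ 1 → n * x ^ 6 / Z ≤
      Real.log (∫ g, Real.exp (x * (freeEnergy n β g - c₀)) ∂(disorder n)) ∧
      Real.log (∫ g, Real.exp (x * (freeEnergy n β g - c₀)) ∂(disorder n)) ≤
        C * (n * x ^ 6))
    (hs : (n : ℝ) ^ (-(5 / 12) : ℝ) ≤ s) (hw : 1 ≤ w) :
    mBad n β s w ≤ w * s ^ (2 / 5 : ℝ) * Z ^ 3 := by
  have hn1 : (1 : ℝ) ≤ n := by exact_mod_cast hn
  have hn0 : (0 : ℝ) < n := by linarith
  have hs0 : 0 < s := lt_of_lt_of_le (by positivity) hs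
  have hZ0 : 0 < Z := by linarith
  obtain ⟨u, hu⟩ : ∃ u, u = s ^ (2 / 5 : ℝ) := ⟨_, rfl⟩
  have hu0 : 0 < u := by rw [hu]; positivity
  have hu5 : u ^ 5 = s ^ 2 := by
    rw [hu, ← Real.rpow_natCast, ← Real.rpow_mul hs0.le, ← Real.rpow_natCast]
    congr 1
    norm_num
  have hun : (n : ℝ) ^ (-(1 / 6) : ℝ) ≤ u := by
    have h1 := Real.rpow_le_rpow (by positivity) hs (show (0 : ℝ) ≤ 2 / 5 by norm_num)
    rw [← Real.rpow_mul hn0.le] at h1
    rw [hu]
    refine le_trans (le_of_eq ?_) h1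
    congr 1
    norm_num
  have hu6 : 1 ≤ n * u ^ 6 := by
    have h1 := pow_le_pow_left₀ (by positivity) hun 6
    rw [← Real.rpow_natCast, ← Real.rpow_mul hn0.le] at h1
    have e1 : (n : ℝ) ^ (-(1 / 6) * ((6 : ℕ) : ℝ)) = (n : ℝ)⁻¹ := by
      rw [← Real.rpow_neg_one]
      congr 1
      norm_num
    rw [e1] at h1
    have h2 := mul_le_mul_of_nonneg_left h1 hn0.le
    rwa [mul_inv_cancel₀ hn0.ne'] at h2
  rw [← hu]
  -- trivial cases
  by_cases ht1 : 1 ≤ w * u * Z ^ 3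
  · exact (mBad_le_one s w).trans ht1
  push Not at ht1
  have hwu : u ≤ w * u := le_mul_of_one_le_left hu0.le hw
  have hZ3 : (1 : ℝ) ≤ Z ^ 3 := one_le_pow₀ (by linarith)
  have huZ : u * Z ^ 2 ≤ 1 := by
    have h1 : u * Z ^ 2 ≤ w * u * Z ^ 3 := by
      calc u * Z ^ 2 ≤ w * u * Z ^ 2 := by gcongr
        _ ≤ w * u * Z ^ 3 := by
            gcongr
            · linarith
            · norm_num
    linarith
  have hwZ : w * u < 1 := by
    have h1 : w * u * 1 ≤ w * u * Z ^ 3 := by gcongr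
    linarith
  obtain ⟨κ, hκ⟩ : ∃ κ : ℝ → ℝ, ∀ y, κ y =
    Real.log (∫ g, Real.exp (y * (freeEnergy n β g - c₀)) ∂(disorder n)) := ⟨_, fun _ => rfl⟩
  -- the number of scales
  obtain ⟨K, hK1, hK2⟩ : ∃ K : ℕ, C * Z < 4 ^ K ∧ (2 : ℝ) ^ (K + 1) ≤ Z := by
    have h1 : ∃ j : ℕ, C * Z < 4 ^ j := pow_unbounded_of_one_lt _ (by norm_num)
    classical
    refine ⟨Nat.find h1, Nat.find_spec h1, ?_⟩
    have h2 : 1 ≤ Nat.find h1 := by
      by_contra hc
      have h3 := Nat.find_spec h1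
      have h4 : Nat.find h1 = 0 := by omega
      rw [h4, pow_zero] at h3
      nlinarith
    have h3 := Nat.find_min h1 (m := Nat.find h1 - 1) (by omega)
    have h4 : (4 : ℝ) ^ (Nat.find h1 - 1) ≤ C * Z := not_lt.1 h3
    have h5 : ((2 : ℝ) ^ (Nat.find h1 + 1)) ^ 2 = 16 * 4 ^ (Nat.find h1 - 1) := by
      obtain ⟨m, hm⟩ : ∃ m, Nat.find h1 = m + 1 := ⟨Nat.find h1 - 1, by omega⟩
      rw [hm, ← pow_mul, mul_comm, pow_mul]
      norm_num
      ring
    have h6 : ((2 : ℝ) ^ (Nat.find h1 + 1)) ^ 2 ≤ Z ^ 2 := by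
      rw [h5]
      nlinarith
    exact (sq_le_sq₀ (by positivity) hZ0.le).1 h6
  obtain ⟨x, hx1, hx2, h8, h4096, hlow⟩ := scaleL (κ := κ) (A := n / Z) (B := C * n)
    (x₀ := u * Z) (K := K) (by positivity) (by
      rw [div_mul_eq_mul_div, lt_div_iff₀ hZ0]
      calc C * n * Z = n * (C * Z) := by ring
        _ < n * 4 ^ K := mul_lt_mul_of_pos_left hK1 hn0) (by positivity) (fun x h1 h2 => by
      rw [hκ]
      have h3 : Z / (n : ℝ) ^ (1 / 6 : ℝ) ≤ x := by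
        refine le_trans ?_ h1
        rw [div_eq_mul_inv, ← Real.rpow_neg hn0.le, mul_comm]
        exact mul_le_mul_of_nonneg_right hun hZ0.le
      have h4 : x ≤ 1 := by
        refine h2.trans (le_trans ?_ huZ)
        calc u * Z * 2 ^ (K + 1) ≤ u * Z * Z := by gcongr
          _ = u * Z ^ 2 := by ring
      obtain ⟨h5, h6⟩ := hm x h3 h4
      constructor
      · refine le_trans (le_of_eq ?_) h5
        ring
      · refine h6.trans (le_of_eq ?_)
        ring)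
  have hx0 : 0 < x := lt_of_lt_of_le (by positivity) hx1
  have hxle : x ≤ u * Z ^ 2 := by
    refine hx2.trans ?_
    calc u * Z * 2 ^ (K + 1) ≤ u * Z * Z := by gcongr
      _ = u * Z ^ 2 := by ring
  have hx5 : u ^ 5 * Z ^ 5 ≤ x ^ 5 := by
    rw [← mul_pow]
    exact pow_le_pow_left₀ (by positivity) hx1 5
  have hx6 : u ^ 6 * Z ^ 6 ≤ x ^ 6 := by
    rw [← mul_pow]
    exact pow_le_pow_left₀ (by positivity) hx1 6
  -- lower bounds of `κ x`
  have hlow5 : n * x * (u ^ 5 * Z ^ 4) ≤ κ x := by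
    refine le_trans ?_ hlow
    have e1 : n * x * (u ^ 5 * Z ^ 4) = n / Z * (x * (u ^ 5 * Z ^ 5)) := by
      field_simp
    rw [e1]
    refine mul_le_mul_of_nonneg_left ?_ (by positivity)
    calc x * (u ^ 5 * Z ^ 5) ≤ x * x ^ 5 := by gcongr
      _ = x ^ 6 := by ring
  have hlow6 : Z ^ 5 ≤ κ x := by
    refine le_trans ?_ hlow
    have e1 : n / Z * (u ^ 6 * Z ^ 6) = (n * u ^ 6) * Z ^ 5 := by
      field_simp
    calc Z ^ 5 = 1 * Z ^ 5 := by ring
      _ ≤ (n * u ^ 6) * Z ^ 5 := by gcongr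
      _ = n / Z * (u ^ 6 * Z ^ 6) := e1.symm
      _ ≤ n / Z * x ^ 6 := mul_le_mul_of_nonneg_left hx6 (by positivity)
  have hpos : 0 < κ x := lt_of_lt_of_le (by positivity) hlow6
  have hZ4 : Z ≤ Z ^ 4 := le_self_pow₀ (by linarith) (by norm_num)
  have hε : β ^ 2 * x * n * s ^ 2 ≤ κ x := by
    refine le_trans ?_ hlow5
    rw [← hu5]
    calc β ^ 2 * x * n * u ^ 5 = n * x * (u ^ 5 * β ^ 2) := by ring
      _ ≤ n * x * (u ^ 5 * Z ^ 4) := by gcongr; exact hZβ.trans hZ4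
  have hθ : w + 1 < κ x / (2 * x) := by
    rw [lt_div_iff₀ (by positivity)]
    refine lt_of_lt_of_le ?_ hlow5
    have e1 : 1 * Z ^ 4 ≤ u * (n * u ^ 5 * Z ^ 4) := by
      calc 1 * Z ^ 4 ≤ (n * u ^ 6) * Z ^ 4 := by gcongr
        _ = u * (n * u ^ 5 * Z ^ 4) := by ring
    have e2 : u * (2 * (w + 1)) < u * (n * u ^ 5 * Z ^ 4) := by
      refine lt_of_lt_of_le ?_ e1
      have h1 : u * (2 * (w + 1)) ≤ 4 * (w * u) := by nlinarith
      linarith
    have e3 := lt_of_mul_lt_mul_left e2 hu0.le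
    calc (w + 1) * (2 * x) = x * (2 * (w + 1)) := by ring
      _ < x * (n * u ^ 5 * Z ^ 4) := mul_lt_mul_of_pos_left e3 hx0
      _ = n * x * (u ^ 5 * Z ^ 4) := by ring
  have hexp : 8 * Real.exp (-(κ x / 4)) ≤ κ x * x := by
    have h1 : Real.exp (-(Real.log n / 6)) ≤ x := by
      have e1 : Real.exp (-(Real.log n / 6)) = (n : ℝ) ^ (-(1 / 6) : ℝ) := by
        rw [Real.rpow_def_of_pos hn0]
        congr 1
        ring
      rw [e1]
      refine hun.trans (le_trans ?_ hx1)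
      exact le_mul_of_one_le_right hu0.le (by linarith)
    have h2 : 8 ≤ κ x := by
      have : Z ≤ Z ^ 5 := le_self_pow₀ (by linarith) (by norm_num)
      linarith
    have h3 : Real.exp (-(κ x / 4)) ≤ Real.exp (-(Real.log n / 6)) := by
      refine Real.exp_le_exp.2 ?_
      have : Z ≤ Z ^ 5 := le_self_pow₀ (by linarith) (by norm_num)
      have h4 := Real.log_nonneg hn1
      linarith
    calc 8 * Real.exp (-(κ x / 4)) ≤ κ x * Real.exp (-(Real.log n / 6)) := by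
          gcongr
      _ ≤ κ x * x := by gcongr
  have hmain := bad_scale (n := n) (β := β) (c := c₀) (x := x) (θ1 := w + 1)
    (ε := s) hn hβ hx0 (hxle.trans huZ) (κ := κ) hκ hpos (by linarith) h4096 hε
    (by linarith) hθ hexp
  have hexp2 : Real.exp w ≤ Real.exp (w + 1) - 1 := by
    rw [Real.exp_add]
    have e10 : 1 ≤ Real.exp w := Real.one_le_exp (by linarith)
    have e11 : 2 ≤ Real.exp 1 := by
      have := Real.add_one_le_exp (1 : ℝ)
      linarith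
    nlinarith
  unfold mBad
  refine (H357.int_mono le_rfl hexp2).trans (hmain.trans ?_)
  calc (w + 1) * (20000 * x) ≤ (2 * w) * (20000 * (u * Z ^ 2)) := by
        gcongr
        linarith
    _ = w * u * (40000 * Z ^ 2) := by ring
    _ ≤ w * u * (Z * Z ^ 2) := by gcongr
    _ = w * u * Z ^ 3 := by ring

/-- **The bad mass**: for all `s ≥ n ^ (-5/12)` and `w ≥ 1` the mean Gibbs mass of the
configurations `σ` for which the Gibbs mass of `|R(σ,·)| ≤ s` is larger than `exp (-w)` is at most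
`w s ^ (2/5)`, up to a power of `log n`. -/
theorem lawL (hβ0 : 0 < β) (hM : MomL β) : ∃ C : ℝ, 1 ≤ C ∧ ∀ᶠ n : ℕ in atTop,
    ∀ s w : ℝ, (n : ℝ) ^ (-(5 / 12) : ℝ) ≤ s → 1 ≤ w →
      mBad n β s w ≤ w * s ^ (2 / 5 : ℝ) * Real.log n ^ C := by
  obtain ⟨c₀, C, hC, hm⟩ := hM
  refine ⟨C * 3, by linarith, ?_⟩
  have tl : Tendsto (fun n : ℕ => Real.log n) atTop atTop :=
    Real.tendsto_log_atTop.comp tendsto_natCast_atTop_atTop
  filter_upwards [hm, eventually_ge_atTop 1, tl.eventually_ge_atTop 40000,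
    tl.eventually_ge_atTop (16 * C), tl.eventually_ge_atTop (β ^ 2)] with n h1 hn h2 h3 h4 s w hs hw
  have h5 : Real.log n ≤ Real.log n ^ C := by
    nth_rewrite 1 [← Real.rpow_one (Real.log n)]
    exact Real.rpow_le_rpow_of_exponent_le (by linarith) hC
  have h := mBad_n (n := n) (β := β) (c₀ := c₀ n) (C := C) (s := s) (w := w)
    (Z := Real.log n ^ C) hn hβ0 hC (by linarith) (by linarith) (by linarith) h5 h1 hs hw
  rwa [← Real.rpow_natCast, ← Real.rpow_mul (by linarith)] at h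

end Vale.Agent.P146.H357.B6
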