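import Vale.Agent.P150.H357.Main
import Vale.Agent.P150.H281.LawL

/-!
# P150: stretched-exponentially slow mixing at every low temperature, exponent `1 / 6` up to a
power of `log n`
-/

open MeasureTheory ProbabilityTheory Filter Topology

namespace Vale.Agent.P150.H281

open Vale.Agent.P150.H357 Vale.Agent.P146.H357.B6

variable {n : ℕ} {β : ℝ}

/-- an upper bound of the real measures of the complements -/
lemma whp_of_real {A : (n : ℕ) → Set (Pairs n → ℝ)} (b : ℕ → ℝ) (hb : Tendsto b atTop (𝓝 0))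
    (h : ∀ᶠ n : ℕ in atTop, (disorder n).real (A n)ᶜ ≤ b n) : WHP A := by
  unfold WHP
  have h1 : Tendsto (fun n => ENNReal.ofReal (b n)) atTop (𝓝 0) := by
    have := (ENNReal.continuous_ofReal.tendsto 0).comp hb
    rw [ENNReal.ofReal_zero] at this
    exact this
  refine tendsto_of_tendsto_of_tendsto_of_le_of_le' tendsto_const_nhds h1
    (Eventually.of_forall fun n => zero_le) ?_
  filter_upwards [h] with n hn
  have hP : IsProbabilityMeasure (disorder n) := by unfold disorder; infer_instance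
  rw [← ENNReal.ofReal_toReal (measure_ne_top (disorder n) (A n)ᶜ)]
  exact ENNReal.ofReal_le_ofReal hn

/-- the Gibbs mass of the configurations `y` for which the Gibbs mass of the `x` with overlap at
most `s` with `y` is larger than `exp (-w)` -/
noncomputable def Bm (n : ℕ) (β s w : ℝ) (g : Pairs n → ℝ) : ℝ :=
  ex (skJ β g) (fun _ => 0) (fun τ => if Real.exp (-w) <
    ex (skJ β g) (fun _ => 0) (fun x => if |ov τ x / n| ≤ s then 1 else 0) then 1 else 0)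

lemma Bm_nonneg (s w : ℝ) (g : Pairs n → ℝ) : 0 ≤ Bm n β s w g :=
  Semi.ex_nonneg _ fun τ => by split_ifs <;> norm_num

lemma Bm_le_one (s w : ℝ) (g : Pairs n → ℝ) : Bm n β s w g ≤ 1 := by
  have h : Bm n β s w g ≤ ex (skJ β g) (fun _ => 0) (fun _ => 1) :=
    Semi.ex_mono _ fun τ => by split_ifs <;> norm_num
  rwa [Semi.ex_const] at h

lemma Bm_mono {s s' w w' : ℝ} (hs : s ≤ s') (hw : w ≤ w') (g : Pairs n → ℝ) :
    Bm n β s w g ≤ Bm n β s' w' g := by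
  refine Semi.ex_mono _ fun τ => ?_
  by_cases h : Real.exp (-w) <
    ex (skJ β g) (fun _ => 0) (fun x => if |ov τ x / n| ≤ s then 1 else 0)
  · rw [if_pos h, if_pos]
    have h1 : Real.exp (-w') ≤ Real.exp (-w) := Real.exp_le_exp.2 (by linarith)
    have h2 : ex (skJ β g) (fun _ => 0) (fun x => if |ov τ x / n| ≤ s then (1 : ℝ) else 0) ≤
        ex (skJ β g) (fun _ => 0) (fun x => if |ov τ x / n| ≤ s' then (1 : ℝ) else 0) := by
      refine Semi.ex_mono _ fun x => ?_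
      by_cases h3 : |ov τ x / n| ≤ s
      · rw [if_pos h3, if_pos (h3.trans hs)]
      · rw [if_neg h3]
        split_ifs <;> norm_num
    linarith
  · rw [if_neg h]
    split_ifs <;> norm_num

lemma Bm_eq (s w : ℝ) (g : Pairs n → ℝ) : Bm n β s w g =
    ∑ σ : Fin n → ℤˣ, P146.H605.gibbs n β g σ *
      (if Real.exp (-w) < P146.H357.p2 n β s g σ then (1 : ℝ) else 0) :=
  (bad_eq g s (Real.exp (-w))).symm

lemma int_Bm (s w : ℝ) : Integrable (Bm n β s w) (disorder n) := by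
  have h : Bm n β s w = fun g => ∑ σ : Fin n → ℤˣ, P146.H605.gibbs n β g σ *
      (if Real.exp (-w) < P146.H357.p2 n β s g σ then (1 : ℝ) else 0) :=
    funext fun g => Bm_eq s w g
  rw [h]
  exact P146.H357.int_gs (f := fun σ g => if Real.exp (-w) <
    P146.H357.p2 n β s g σ then (1 : ℝ) else 0)
    (fun σ => P146.H357.meas1 _ _ σ) fun σ g => by split_ifs <;> norm_num

lemma integral_Bm (s w : ℝ) : ∫ g, Bm n β s w g ∂(disorder n) = mBad n β s w := by
  have h : (fun g : Pairs n → ℝ => Bm n β s w g) = fun g => ∑ σ : Fin n → ℤˣ,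
      P146.H605.gibbs n β g σ *
      (if Real.exp (-w) < P146.H357.p2 n β s g σ then (1 : ℝ) else 0) :=
    funext fun g => Bm_eq s w g
  rw [h]
  rfl

/-- **All thresholds at once**: with high probability, for all `s ≥ n ^ (-5/12)` and `w ≥ 1`. -/
theorem whp_all (hβ : 0 < β) (hM : MomL β) : ∃ C : ℝ, 1 ≤ C ∧ WHP (fun n => {g |
    ∀ s w : ℝ, (n : ℝ) ^ (-(5 / 12) : ℝ) ≤ s → 1 ≤ w →
      Bm n β s w g ≤ Real.log n ^ C * w * s ^ (2 / 5 : ℝ)}) := by
  obtain ⟨C, hC, hlaw⟩ := lawL hβ hM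
  refine ⟨C + 5, by linarith, ?_⟩
  have tl : Tendsto (fun n : ℕ => Real.log n) atTop atTop :=
    Real.tendsto_log_atTop.comp tendsto_natCast_atTop_atTop
  refine whp_of_real (fun n => 16 / Real.log n) (tl.const_div_atTop 16) ?_
  filter_upwards [hlaw, eventually_ge_atTop 1, tl.eventually_ge_atTop 4] with n hn hn1 hL4
  have hn1' : (1 : ℝ) ≤ n := by exact_mod_cast hn1
  have hn0 : (0 : ℝ) < n := by linarith
  obtain ⟨L, hL⟩ : ∃ L, L = Real.log n := ⟨_, rfl⟩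
  rw [← hL] at hn hL4 ⊢
  have hL0 : 0 < L := by linarith
  have hP : IsProbabilityMeasure (disorder n) := by unfold disorder; infer_instance
  -- the grid
  obtain ⟨N, hN1, hN2⟩ : ∃ N : ℕ, 2 * L ≤ N ∧ (N : ℝ) + 2 ≤ 4 * L := by
    refine ⟨⌈2 * L⌉₊, Nat.le_ceil _, ?_⟩
    have := Nat.ceil_lt_add_one (show 0 ≤ 2 * L by linarith)
    linarith
  obtain ⟨r, hr⟩ : ∃ r, r = (n : ℝ) ^ (-(5 / 12) : ℝ) := ⟨_, rfl⟩
  have hr0 : 0 < r := by rw [hr]; positivity
  rw [← hr] at hn ⊢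
  obtain ⟨S, hS⟩ : ∃ S : ℕ → ℝ, ∀ i, S i = max ((1 / 2 : ℝ) ^ i) r := ⟨_, fun _ => rfl⟩
  have hSr : ∀ i, r ≤ S i := fun i => by rw [hS]; exact le_max_right _ _
  have hS0 : ∀ i, 0 < S i := fun i => lt_of_lt_of_le hr0 (hSr i)
  obtain ⟨G, hG⟩ : ∃ G : ℕ → ℕ → ℝ, ∀ i j, G i j = 2 ^ j * S i ^ (2 / 5 : ℝ) * L ^ C :=
    ⟨_, fun _ _ => rfl⟩
  have hG0 : ∀ i j, 0 < G i j := fun i j => by
    rw [hG]
    have := hS0 i
    positivity
  obtain ⟨f, hf⟩ : ∃ f : (Pairs n → ℝ) → ℝ, f = fun g => ∑ i ∈ Finset.range (N + 2),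
    ∑ j ∈ Finset.range (N + 2), Bm n β (S i) (2 ^ j) g / G i j := ⟨_, rfl⟩
  have hI : Integrable f (disorder n) := by
    rw [hf]
    exact integrable_finsetSum _ fun i _ => integrable_finsetSum _ fun j _ =>
      (int_Bm _ _).div_const _
  have hf0 : ∀ g, 0 ≤ f g := fun g => by
    rw [hf]
    exact Finset.sum_nonneg fun i _ => Finset.sum_nonneg fun j _ =>
      div_nonneg (Bm_nonneg _ _ _) (hG0 i j).le
  have hint : ∫ g, f g ∂(disorder n) ≤ (4 * L) ^ 2 := by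
    rw [hf, integral_finsetSum _ fun i _ => integrable_finsetSum _ fun j _ =>
      (int_Bm _ _).div_const _]
    have h1 : ∀ i ∈ Finset.range (N + 2), ∫ g, ∑ j ∈ Finset.range (N + 2),
        Bm n β (S i) (2 ^ j) g / G i j ∂(disorder n) ≤ (N : ℝ) + 2 := by
      intro i _
      rw [integral_finsetSum _ fun j _ => (int_Bm _ _).div_const _]
      have h2 : ∀ j ∈ Finset.range (N + 2), ∫ g, Bm n β (S i) (2 ^ j) g / G i j ∂(disorder n) ≤
          1 := by
        intro j _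
        rw [integral_div, integral_Bm, div_le_one (hG0 i j), hG]
        exact hn (S i) (2 ^ j) (hSr i) (one_le_pow₀ (by norm_num))
      refine (Finset.sum_le_sum h2).trans (le_of_eq ?_)
      simp
    refine (Finset.sum_le_sum h1).trans ?_
    rw [Finset.sum_const, Finset.card_range, nsmul_eq_mul]
    push_cast
    have : (0 : ℝ) ≤ N := Nat.cast_nonneg N
    nlinarith
  -- the event
  have hsub : {g : Pairs n → ℝ | ∀ s w : ℝ, r ≤ s → 1 ≤ w →
      Bm n β s w g ≤ L ^ (C + 5) * w * s ^ (2 / 5 : ℝ)}ᶜ ⊆ {g | L ^ 3 ≤ f g} := by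
    intro g hg
    by_contra hc
    refine hg fun s w hs hw => ?_
    have hc' : f g < L ^ 3 := not_le.1 hc
    have hs0 : 0 < s := lt_of_lt_of_le hr0 hs
    have hLC : 1 ≤ L ^ (C + 5) := Real.one_le_rpow (by linarith) (by linarith)
    -- large `s`
    by_cases hs1 : 1 ≤ s
    · refine (Bm_le_one s w g).trans ?_
      have h1 : 1 ≤ s ^ (2 / 5 : ℝ) := Real.one_le_rpow hs1 (by norm_num)
      calc (1 : ℝ) = 1 * 1 * 1 := by norm_num
        _ ≤ L ^ (C + 5) * w * s ^ (2 / 5 : ℝ) := by gcongr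
    push Not at hs1
    -- large `w`
    by_cases hwN : 2 ^ N < w
    · refine (Bm_le_one s w g).trans ?_
      have h1 : (n : ℝ) ^ (-(1 / 6) : ℝ) ≤ s ^ (2 / 5 : ℝ) := by
        have h2 := Real.rpow_le_rpow hr0.le hs (show (0 : ℝ) ≤ 2 / 5 by norm_num)
        rw [hr, ← Real.rpow_mul hn0.le] at h2
        refine le_trans (le_of_eq ?_) h2
        congr 1
        norm_num
      have h3 : (n : ℝ) ^ (1 / 6 : ℝ) ≤ w := by
        refine le_trans ?_ hwN.le
        have h4 : (n : ℝ) ^ (1 / 6 : ℝ) = Real.exp (L * (1 / 6)) := by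
          rw [hL, Real.rpow_def_of_pos hn0]
        have h5 : (2 : ℝ) ^ N = Real.exp (Real.log 2 * N) := by
          rw [mul_comm, Real.exp_nat_mul, Real.exp_log (by norm_num)]
        rw [h4, h5]
        refine Real.exp_le_exp.2 ?_
        have h6 := Real.log_two_gt_d9
        nlinarith
      have h7 : 1 ≤ w * s ^ (2 / 5 : ℝ) := by
        have h8 : (n : ℝ) ^ (1 / 6 : ℝ) * (n : ℝ) ^ (-(1 / 6) : ℝ) = 1 := by
          rw [← Real.rpow_add hn0]
          norm_num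
        rw [← h8]
        gcongr
      calc (1 : ℝ) = 1 * 1 := by norm_num
        _ ≤ L ^ (C + 5) * (w * s ^ (2 / 5 : ℝ)) := by gcongr
        _ = _ := by ring
    push Not at hwN
    -- the grid points
    obtain ⟨i, hi1, hi2⟩ := exists_nat_pow_near (x := 1 / s) (y := 2)
      (by rw [le_div_iff₀ hs0]; linarith) (by norm_num)
    obtain ⟨j, hj1, hj2⟩ := exists_nat_pow_near (x := w) (y := 2) hw (by norm_num)
    have hiN : i < N + 2 := by
      have h1 : (2 : ℝ) ^ i ≤ 1 / r := hi1.trans (by gcongr)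
      have h2 : 1 / r = Real.exp (L * (5 / 12)) := by
        rw [hr, Real.rpow_neg hn0.le, one_div, inv_inv, hL, Real.rpow_def_of_pos hn0]
      have h5 : (2 : ℝ) ^ i = Real.exp (Real.log 2 * i) := by
        rw [mul_comm, Real.exp_nat_mul, Real.exp_log (by norm_num)]
      rw [h2, h5, Real.exp_le_exp] at h1
      have h6 := Real.log_two_gt_d9
      have h7 : (i : ℝ) < N + 2 := by
        have h8 : (0 : ℝ) ≤ i := Nat.cast_nonneg i
        nlinarith
      exact_mod_cast h7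
    have hjN : j + 1 < N + 2 := by
      have h1 : (2 : ℝ) ^ j ≤ 2 ^ N := hj1.trans hwN
      have h2 : j ≤ N := (pow_le_pow_iff_right₀ (by norm_num : (1 : ℝ) < 2)).1 h1
      omega
    have hsi : s ≤ (1 / 2 : ℝ) ^ i := by
      rw [le_div_iff₀ hs0] at hi1
      rw [one_div, inv_pow, ← one_div, le_div_iff₀ (by positivity)]
      linarith
    have hSi : S i = (1 / 2 : ℝ) ^ i := by
      rw [hS]
      exact max_eq_left (hs.trans hsi)
    have hSi2 : S i ≤ 2 * s := by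
      rw [hSi]
      rw [div_lt_iff₀ hs0] at hi2
      have h1 : (1 / 2 : ℝ) ^ i * 2 ^ i = 1 := by rw [← mul_pow]; norm_num
      have h2 : (0 : ℝ) < (1 / 2 : ℝ) ^ i := by positivity
      have h3 := mul_lt_mul_of_pos_left hi2 h2
      calc (1 / 2 : ℝ) ^ i = (1 / 2 : ℝ) ^ i * 1 := by ring
        _ ≤ (1 / 2 : ℝ) ^ i * (2 ^ (i + 1) * s) := h3.le
        _ = (1 / 2 : ℝ) ^ i * 2 ^ i * (2 * s) := by ring
        _ = 2 * s := by rw [h1, one_mul]
    have hterm : Bm n β (S i) (2 ^ (j + 1)) g / G i (j + 1) ≤ f g := by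
      rw [hf]
      have h1 : Bm n β (S i) (2 ^ (j + 1)) g / G i (j + 1) ≤
          ∑ k ∈ Finset.range (N + 2), Bm n β (S i) (2 ^ k) g / G i k :=
        Finset.single_le_sum (f := fun k => Bm n β (S i) (2 ^ k) g / G i k)
          (fun k _ => div_nonneg (Bm_nonneg _ _ _) (hG0 i k).le) (Finset.mem_range.2 hjN)
      exact h1.trans (Finset.single_le_sum (f := fun l => ∑ k ∈ Finset.range (N + 2),
        Bm n β (S l) (2 ^ k) g / G l k) (fun l _ => Finset.sum_nonneg fun k _ =>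
          div_nonneg (Bm_nonneg _ _ _) (hG0 l k).le) (Finset.mem_range.2 hiN))
    have hb1 : Bm n β s w g ≤ Bm n β (S i) (2 ^ (j + 1)) g :=
      Bm_mono (by rw [hSi]; exact hsi) hj2.le g
    have hb2 : Bm n β (S i) (2 ^ (j + 1)) g ≤ L ^ 3 * G i (j + 1) := by
      have h1 := hterm.trans hc'.le
      rwa [div_le_iff₀ (hG0 i (j + 1))] at h1
    refine hb1.trans (hb2.trans ?_)
    rw [hG]
    have h1 : S i ^ (2 / 5 : ℝ) ≤ 2 * s ^ (2 / 5 : ℝ) := by
      have h2 := Real.rpow_le_rpow (hS0 i).le hSi2 (show (0 : ℝ) ≤ 2 / 5 by norm_num)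
      rw [Real.mul_rpow (by norm_num) hs0.le] at h2
      refine h2.trans ?_
      have h3 : (2 : ℝ) ^ (2 / 5 : ℝ) ≤ 2 ^ (1 : ℝ) :=
        Real.rpow_le_rpow_of_exponent_le (by norm_num) (by norm_num)
      rw [Real.rpow_one] at h3
      gcongr
    have h4 : (2 : ℝ) ^ (j + 1) ≤ 2 * w := by rw [pow_succ]; linarith
    have h5 : L ^ (C + 5) = L ^ C * L ^ 5 := by
      rw [Real.rpow_add hL0]
      norm_num
    rw [h5]
    have h6 : (4 : ℝ) ≤ L ^ 2 := by nlinarith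
    have h7 : 0 < L ^ C := by positivity
    have h8 : 0 ≤ S i ^ (2 / 5 : ℝ) := Real.rpow_nonneg (hS0 i).le _
    calc L ^ 3 * (2 ^ (j + 1) * S i ^ (2 / 5 : ℝ) * L ^ C)
        ≤ L ^ 3 * ((2 * w) * (2 * s ^ (2 / 5 : ℝ)) * L ^ C) := by gcongr
      _ = L ^ 3 * 4 * (w * s ^ (2 / 5 : ℝ) * L ^ C) := by ring
      _ ≤ L ^ 3 * L ^ 2 * (w * s ^ (2 / 5 : ℝ) * L ^ C) := by gcongr
      _ = L ^ C * L ^ 5 * w * s ^ (2 / 5 : ℝ) := by ring
  have hM' := mul_meas_ge_le_integral_of_nonneg (μ := disorder n)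
    (Filter.Eventually.of_forall hf0) hI (L ^ 3)
  have h2 := (measureReal_mono (μ := disorder n) hsub)
  refine h2.trans ?_
  rw [le_div_iff₀ hL0]
  have h3 : L ^ 3 * (disorder n).real {g | L ^ 3 ≤ f g} ≤ (4 * L) ^ 2 := hM'.trans hint
  have h4 : L ^ 2 * ((disorder n).real {g | L ^ 3 ≤ f g} * L) ≤ L ^ 2 * 16 := by
    calc L ^ 2 * ((disorder n).real {g | L ^ 3 ≤ f g} * L) =
        L ^ 3 * (disorder n).real {g | L ^ 3 ≤ f g} := by ring
      _ ≤ (4 * L) ^ 2 := h3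
      _ = L ^ 2 * 16 := by ring
  exact le_of_mul_le_mul_left h4 (by positivity)

/-- Elementary sizes. -/
lemma sizesL (C : ℝ) : ∀ᶠ n : ℕ in atTop,
    8 * n * Real.exp (3 * ((n : ℝ) ^ (1 / 6 : ℝ) / Real.log n ^ (C + 2))) ≤
      Real.exp ((n : ℝ) ^ (1 / 6 : ℝ) / Real.log n ^ (C + 1)) ∧
    1 ≤ (n : ℝ) ^ (1 / 6 : ℝ) / Real.log n ^ (C + 1) := by
  have tl : Tendsto (fun n : ℕ => Real.log n) atTop atTop :=
    Real.tendsto_log_atTop.comp tendsto_natCast_atTop_atTop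
  -- `4 (log n)^(C + 2) ≤ n ^ (1/6)`
  have h1 : ∀ᶠ n : ℕ in atTop, Real.log n ^ (C + 2) ≤ (1 / 4) * (n : ℝ) ^ (1 / 6 : ℝ) := by
    have h2 := ((isLittleO_log_rpow_rpow_atTop (C + 2)
      (show (0 : ℝ) < 1 / 6 by norm_num)).comp_tendsto
      (tendsto_natCast_atTop_atTop (R := ℝ))).def (show (0 : ℝ) < 1 / 4 by norm_num)
    filter_upwards [h2, eventually_ge_atTop 1] with n h3 h4
    have hn1 : (1 : ℝ) ≤ n := by exact_mod_cast h4
    simp only [Function.comp_apply] at h3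
    rwa [Real.norm_of_nonneg (Real.rpow_nonneg (Real.log_nonneg hn1) _),
      Real.norm_of_nonneg (Real.rpow_nonneg (by linarith) _)] at h3
  filter_upwards [h1, tl.eventually_ge_atTop 6, eventually_ge_atTop 1] with n h2 hL6 h4
  have hn1 : (1 : ℝ) ≤ n := by exact_mod_cast h4
  have hn0 : (0 : ℝ) < n := by linarith
  obtain ⟨L, hL⟩ : ∃ L, L = Real.log n := ⟨_, rfl⟩
  rw [← hL] at h2 hL6 ⊢
  have hL0 : 0 < L := by linarith
  obtain ⟨W, hW⟩ : ∃ W, W = (n : ℝ) ^ (1 / 6 : ℝ) / L ^ (C + 1) := ⟨_, rfl⟩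
  have e1 : L ^ (C + 2) = L * L ^ (C + 1) := by
    rw [show C + 2 = 1 + (C + 1) by ring, Real.rpow_add hL0, Real.rpow_one]
  have hLC : 0 < L ^ (C + 1) := by positivity
  have hW4 : 4 * L ≤ W := by
    rw [hW, le_div_iff₀ hLC]
    rw [e1] at h2
    linarith
  have e2 : (n : ℝ) ^ (1 / 6 : ℝ) / L ^ (C + 2) = W / L := by
    rw [hW, e1, div_div, mul_comm]
  rw [e2, ← hW]
  refine ⟨?_, by linarith⟩
  have h5 : (8 : ℝ) * n = Real.exp (Real.log (8 * n)) := (Real.exp_log (by positivity)).symm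
  rw [h5, ← Real.exp_add]
  refine Real.exp_le_exp.2 ?_
  rw [Real.log_mul (by norm_num) hn0.ne', ← hL]
  have h6 : Real.log 8 ≤ 3 := by
    have : Real.log 8 = 3 * Real.log 2 := by
      rw [← Real.log_rpow (by norm_num)]
      norm_num
    have := Real.log_two_lt_d9
    linarith
  have h7 : 3 * (W / L) ≤ W / 2 := by
    have hW0 : 0 ≤ W := by linarith
    have h8 : W / L ≤ W / 6 := by gcongr
    linarith
  linarith

/-- **Slow mixing at every low temperature**, from the moment law up to powers of `log n`. -/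
theorem slowL (hβ : 0 < β) (hM : MomL β) : ∃ C : ℝ, 0 < C ∧ WHP (fun n => {g |
    gap (skJ β g) (fun _ => 0) ≤ Real.exp (-((n : ℝ) ^ (1 / 6 : ℝ) / Real.log n ^ C)) ∧
    Real.log 2 * Real.exp ((n : ℝ) ^ (1 / 6 : ℝ) / Real.log n ^ C) ≤
      tmix (skJ β g) (fun _ => 0) ∧
    (∀ t, 0 ≤ t → ∃ x, Real.exp (-(Real.exp (-((n : ℝ) ^ (1 / 6 : ℝ) / Real.log n ^ C)) * t)) / 2 ≤
      tvDist (skJ β g) (fun _ => 0) t x) ∧
    (∀ t, 0 ≤ t → t ≤ Real.exp ((n : ℝ) ^ (1 / 6 : ℝ) / Real.log n ^ C) →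
      ex (skJ β g) (fun _ => 0) (fun x => if tvDist (skJ β g) (fun _ => 0) t x <
        1 / 2 - Real.exp (-((n : ℝ) ^ (1 / 6 : ℝ) / Real.log n ^ C)) then 1 else 0) ≤
          Real.exp (-((n : ℝ) ^ (1 / 6 : ℝ) / Real.log n ^ C))) ∧
    ∀ s w : ℝ, (n : ℝ) ^ (-(5 / 12) : ℝ) ≤ s → 1 ≤ w →
      ex (skJ β g) (fun _ => 0) (fun y => if Real.exp (-w) <
        ex (skJ β g) (fun _ => 0)
          (fun x => if |(∑ i, sp (x i) * sp (y i)) / n| ≤ s then 1 else 0)
          then 1 else 0) ≤ Real.log n ^ C * w * s ^ (2 / 5 : ℝ)}) := by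
  obtain ⟨C, hC, hW⟩ := whp_all hβ hM
  refine ⟨C + 2, by linarith, MainThm.whp_mono hW ?_⟩
  have tl : Tendsto (fun n : ℕ => Real.log n) atTop atTop :=
    Real.tendsto_log_atTop.comp tendsto_natCast_atTop_atTop
  have tt : Tendsto (fun n : ℕ => (n : ℝ) ^ (7 / 12 : ℝ)) atTop atTop :=
    (tendsto_rpow_atTop (by norm_num)).comp tendsto_natCast_atTop_atTop
  filter_upwards [eventually_ge_atTop 1, tl.eventually_ge_atTop 2, sizesL C,
    tt.eventually_ge_atTop 2] with n hn hL2 h2 h4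
  obtain ⟨h2, h3⟩ := h2
  rintro g hg
  have hn1 : (1 : ℝ) ≤ n := by exact_mod_cast hn
  have hn0 : (0 : ℝ) < n := by linarith
  obtain ⟨L, hL⟩ : ∃ L, L = Real.log n := ⟨_, rfl⟩
  rw [← hL] at hL2 h2 h3 ⊢
  have hg' : ∀ s w : ℝ, (n : ℝ) ^ (-(5 / 12) : ℝ) ≤ s → 1 ≤ w →
      Bm n β s w g ≤ L ^ C * w * s ^ (2 / 5 : ℝ) := by
    rw [hL]
    exact hg
  have hL0 : 0 < L := by linarith
  obtain ⟨w, hw⟩ : ∃ w, w = (n : ℝ) ^ (1 / 6 : ℝ) / L ^ (C + 1) := ⟨_, rfl⟩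
  obtain ⟨v, hv⟩ : ∃ v, v = (n : ℝ) ^ (1 / 6 : ℝ) / L ^ (C + 2) := ⟨_, rfl⟩
  rw [← hw, ← hv] at h2
  rw [← hw] at h3
  have hv0 : 0 ≤ v := by rw [hv]; positivity
  have hε : 2 ≤ (n : ℝ) ^ (-(5 / 12) : ℝ) * n := by
    have e1 : (n : ℝ) ^ (-(5 / 12) : ℝ) * n = (n : ℝ) ^ (7 / 12 : ℝ) := by
      nth_rewrite 2 [← Real.rpow_one (n : ℝ)]
      rw [← Real.rpow_add hn0]
      norm_num
    rw [e1]
    exact h4
  have hA : Real.exp (-w) ≤ 1 / 2 := by
    rw [Real.exp_neg, one_div]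
    have : (2 : ℝ) ≤ Real.exp w := by
      have := Real.add_one_le_exp w
      linarith
    gcongr
  have hbad : ex (skJ β g) (fun _ => 0) (fun τ => if Real.exp (-w) <
      ex (skJ β g) (fun _ => 0)
        (fun x => if |ov τ x / n| ≤ (n : ℝ) ^ (-(5 / 12) : ℝ) then 1 else 0)
        then 1 else 0) < 1 := by
    refine lt_of_le_of_lt (hg' _ w le_rfl h3) ?_
    have e1 : ((n : ℝ) ^ (-(5 / 12) : ℝ)) ^ (2 / 5 : ℝ) = (n : ℝ) ^ (-(1 / 6) : ℝ) := by
      rw [← Real.rpow_mul hn0.le]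
      congr 1
      norm_num
    have e2 : L ^ (C + 1) = L * L ^ C := by
      rw [show C + 1 = 1 + C by ring, Real.rpow_add hL0, Real.rpow_one]
    have e3 : (n : ℝ) ^ (1 / 6 : ℝ) * (n : ℝ) ^ (-(1 / 6) : ℝ) = 1 := by
      rw [← Real.rpow_add hn0]
      norm_num
    have e4 : L ^ C * w * (n : ℝ) ^ (-(1 / 6) : ℝ) = 1 / L := by
      have hLC : 0 < L ^ C := by positivity
      rw [hw, e2]
      calc L ^ C * ((n : ℝ) ^ (1 / 6 : ℝ) / (L * L ^ C)) * (n : ℝ) ^ (-(1 / 6) : ℝ) =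
          (n : ℝ) ^ (1 / 6 : ℝ) * (n : ℝ) ^ (-(1 / 6) : ℝ) / L := by field_simp
        _ = 1 / L := by rw [e3]
    rw [e1, e4, div_lt_one hL0]
    linarith
  obtain ⟨k1, k2⟩ := slow_of_bad hn g hε hA hbad
  obtain ⟨E, hE⟩ : ∃ E, E = Real.exp v := ⟨_, rfl⟩
  have hE0 : 0 < E := by rw [hE]; exact Real.exp_pos _
  have hE1 : 1 ≤ E := by
    rw [hE]
    exact Real.one_le_exp hv0
  have hEi : Real.exp (-v) = E⁻¹ := by rw [hE, Real.exp_neg]
  have hE3 : Real.exp (3 * v) = E ^ 3 := by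
    rw [hE, ← Real.exp_nat_mul]
    norm_num
  rw [hE3] at h2
  have hAi : Real.exp (-w) = (Real.exp w)⁻¹ := Real.exp_neg _
  have hA2 : 8 * n * E ^ 3 * Real.exp (-w) ≤ 1 := by
    rw [hAi, ← div_eq_mul_inv, div_le_one (Real.exp_pos _)]
    exact h2
  have hA0 : 0 < Real.exp (-w) := Real.exp_pos _
  have hgap : gap (skJ β g) (fun _ => 0) ≤ Real.exp (-v) := by
    refine k1.trans ?_
    rw [hEi, le_inv_comm₀ (by positivity) hE0]
    rw [← one_div, le_div_iff₀ (by positivity)]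
    refine le_trans ?_ hA2
    have hE2 : E ≤ E ^ 3 := by nlinarith [mul_nonneg hE0.le (sub_nonneg.2 hE1)]
    calc E * (8 * n * Real.exp (-w)) = 8 * n * E * Real.exp (-w) := by ring
      _ ≤ 8 * n * E ^ 3 * Real.exp (-w) := by gcongr
  show _ ∧ _ ∧ _ ∧ _ ∧ _
  rw [← hv]
  refine ⟨hgap, ?_, fun t ht => H185.exists_tv_ge hn (Asm.skJ_symm β g) (fun _ => 0) hgap t ht,
    fun t ht0 ht => ?_, fun s w' hs hw' => (hg' s w' hs hw').trans ?_⟩
  · have h5 := tmix_ge hn (Asm.skJ_symm β g) (fun _ => 0) (Real.exp_pos (-v)) hgap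
    rwa [Real.exp_neg, div_inv_eq_mul] at h5
  · refine (k2 t (Real.exp (-v)) ht0 (Real.exp_pos _)).trans ?_
    rw [← hE] at ht
    rw [hEi]
    have h6 : t * n / E⁻¹ ≤ E * n * E := by
      rw [div_inv_eq_mul]
      gcongr
    have h7 : 2 * (t * n / E⁻¹) + 1 ≤ 8 * n * E ^ 2 := by
      have h8 : 1 ≤ n * E ^ 2 := by
        have : 1 ≤ E ^ 2 := one_le_pow₀ hE1
        nlinarith
      nlinarith
    calc (2 * (t * n / E⁻¹) + 1) * Real.exp (-w)
        ≤ 8 * n * E ^ 2 * Real.exp (-w) := by gcongr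
      _ = (8 * n * E ^ 3 * Real.exp (-w)) * E⁻¹ := by
          field_simp
      _ ≤ 1 * E⁻¹ := by gcongr
      _ = E⁻¹ := one_mul _
  · have h5 : L ^ C ≤ L ^ (C + 2) := Real.rpow_le_rpow_of_exponent_le (by linarith) (by linarith)
    have h6 : 0 < s := lt_of_lt_of_le (by positivity) hs
    gcongr

end Vale.Agent.P150.H281
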