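import Vale.Agent.P146.H558.S3Main
import Vale.Agent.P146.H605S.EndJ
import Vale.Agent.P146.H605S.UnionL
import Vale.Agent.P150.H281.WhpL

/-!
# P150: the moment law up to powers of `log n`
-/

open MeasureTheory ProbabilityTheory Filter Topology

namespace Vale.Agent.P150.H281

open Vale.Agent.P146 Vale.Agent.P146.H357.B6

/-- the moment law at every low temperature, up to powers of `log n` -/
theorem momL {b : ℝ} (hb : 1 < b) : MomL b := by
  obtain ⟨G, hG, h⟩ := S3.joint_all hb (b₁ := 1 / 1000) (by norm_num) (by norm_num)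
  obtain ⟨C₀, hC⟩ := H605S.klog_of_joint hb (by norm_num) h
  obtain ⟨⟨C, c, hC0, hc, hev, -⟩, -⟩ := H605S.unionL hb (by norm_num) (by norm_num) hC
  have tl : Tendsto (fun n : ℕ => Real.log n) atTop atTop :=
    Real.tendsto_log_atTop.comp tendsto_natCast_atTop_atTop
  refine ⟨fun n => H196.meanF n b, max C 1, le_max_right _ _, ?_⟩
  filter_upwards [hev, tl.eventually_ge_atTop 1, eventually_ge_atTop 1] with n hn hL hn1 x hx hx1
  have hn0 : (0 : ℝ) < n := by
    have : (1 : ℝ) ≤ n := by exact_mod_cast hn1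
    linarith
  have h1 : Real.log n ^ C ≤ Real.log n ^ max C 1 :=
    Real.rpow_le_rpow_of_exponent_le hL (le_max_left _ _)
  have hL0 : 0 < Real.log n := by linarith
  have hx0 : 0 < x := lt_of_lt_of_le (by positivity) hx
  obtain ⟨h2, h3⟩ := hn.2.2.2.2.2.1 x (le_trans (by gcongr) hx) hx1
  constructor
  · refine le_trans ?_ h2
    gcongr
  · refine h3.trans ?_
    gcongr
    exact le_max_left _ _

end Vale.Agent.P150.H281
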