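import Mathlib

/-!
# P150: a scale at which a function of order `x ^ 6` up to small powers is regular
-/

open Filter Topology

namespace Vale.Agent.P150.H281

/-- Among `K + 2` dyadic scales there is one which is regular on both sides. -/
theorem dyadic {f : ℕ → ℝ} {A B : ℝ} {K : ℕ} (hA : 0 < A)
    (h : ∀ j, j ≤ K + 1 → A * 64 ^ j ≤ f j ∧ f j ≤ B * 64 ^ j) (hB : B < A * 4 ^ K) :
    ∃ i, i < K ∧ 8 * f i ≤ f (i + 1) ∧ f (i + 2) ≤ 4096 * f (i + 1) := by
  by_contra hc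
  push Not at hc
  have hf0 : f 0 ≤ B := by simpa using (h 0 (by omega)).2
  have hB0 : 0 < B := lt_of_lt_of_le hA (by simpa using (h 0 (by omega)).1.trans (h 0 (by omega)).2)
  -- the first part of the scales
  have hfirst : ∀ m, (∀ i, i < m → f (i + 1) < 8 * f i) → f m ≤ 8 ^ m * B := by
    intro m
    induction m with
    | zero => intro _; simpa using hf0
    | succ m ih =>
      intro hm
      have h1 := ih fun i hi => hm i (by omega)
      have h2 := hm m (by omega)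
      have h3 : (8 : ℝ) ^ (m + 1) * B = 8 * (8 ^ m * B) := by ring
      rw [h3]
      linarith
  by_cases hall : ∀ i, i < K → f (i + 1) < 8 * f i
  · have h1 := hfirst K hall
    have h2 := (h K (by omega)).1
    have h3 : (64 : ℝ) ^ K = 8 ^ K * 8 ^ K := by rw [← mul_pow]; norm_num
    have h4 : (0 : ℝ) < 8 ^ K := by positivity
    have h5 : A * 8 ^ K ≤ B := by
      rw [h3] at h2
      have h6 : 8 ^ K * (A * 8 ^ K) ≤ 8 ^ K * B := by
        calc 8 ^ K * (A * 8 ^ K) = A * (8 ^ K * 8 ^ K) := by ring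
          _ ≤ 8 ^ K * B := h2.trans h1
      exact le_of_mul_le_mul_left h6 h4
    have h6 : (4 : ℝ) ^ K ≤ 8 ^ K := by gcongr; norm_num
    have h7 := mul_le_mul_of_nonneg_left h6 hA.le
    linarith
  · push Not at hall
    obtain ⟨m, ⟨hmK, hm8⟩, hmin⟩ : ∃ m, (m < K ∧ 8 * f m ≤ f (m + 1)) ∧
        ∀ i, i < m → f (i + 1) < 8 * f i := by
      classical
      refine ⟨Nat.find hall, Nat.find_spec hall, fun i hi => ?_⟩
      have h1 := Nat.find_min hall hi
      by_contra h2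
      exact h1 ⟨lt_trans hi (Nat.find_spec hall).1, not_lt.1 h2⟩
    have hpos : ∀ j, j ≤ K + 1 → 0 < f j := fun j hj =>
      lt_of_lt_of_le (by positivity) (h j hj).1
    have hrun : ∀ k, m + k < K → 8 * f (m + k) ≤ f (m + k + 1) := by
      intro k
      induction k with
      | zero => intro _; simpa using hm8
      | succ k ih =>
        intro hk
        have h1 := hc (m + k) (by omega) (ih (by omega))
        have h2 := hpos (m + k + 1) (by omega)
        have e1 : m + (k + 1) = m + k + 1 := by ring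
        rw [e1]
        have e2 : m + k + 2 = m + k + 1 + 1 := by ring
        rw [e2] at h1
        linarith
    have hgrow : ∀ k, m + k ≤ K → 4096 ^ k * f (m + 1) ≤ f (m + 1 + k) := by
      intro k
      induction k with
      | zero => intro _; simp
      | succ k ih =>
        intro hk
        have h1 := ih (by omega)
        have h2 := hc (m + k) (by omega) (hrun k (by omega))
        have e1 : m + 1 + (k + 1) = m + k + 2 := by ring
        have e2 : m + 1 + k = m + k + 1 := by ring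
        rw [e2] at h1
        rw [e1]
        calc (4096 : ℝ) ^ (k + 1) * f (m + 1) = 4096 * (4096 ^ k * f (m + 1)) := by ring
          _ ≤ 4096 * f (m + k + 1) := by linarith
          _ ≤ f (m + k + 2) := h2.le
    obtain ⟨k, hk⟩ : ∃ k, K = m + k := ⟨K - m, by omega⟩
    have h1 := hgrow k (by omega)
    have h2 := (h (m + 1) (by omega)).1
    have h3 := (h (K + 1) le_rfl).2
    have e1 : m + 1 + k = K + 1 := by omega
    rw [e1] at h1
    have h4 : A * 64 ^ k ≤ B := by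
      have h5 : 4096 ^ k * (A * 64 ^ (m + 1)) ≤ B * 64 ^ (K + 1) :=
        (mul_le_mul_of_nonneg_left h2 (by positivity)).trans (h1.trans h3)
      have e2 : (4096 : ℝ) ^ k = 64 ^ k * 64 ^ k := by rw [← mul_pow]; norm_num
      have e3 : (64 : ℝ) ^ (K + 1) = 64 ^ k * 64 ^ (m + 1) := by rw [hk]; ring
      rw [e2, e3] at h5
      have h6 : (0 : ℝ) < 64 ^ k * 64 ^ (m + 1) := by positivity
      have h7 : (64 ^ k * 64 ^ (m + 1)) * (A * 64 ^ k) ≤ (64 ^ k * 64 ^ (m + 1)) * B := by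
        calc (64 ^ k * 64 ^ (m + 1)) * (A * 64 ^ k) =
            64 ^ k * 64 ^ k * (A * 64 ^ (m + 1)) := by ring
          _ ≤ B * (64 ^ k * 64 ^ (m + 1)) := h5
          _ = _ := by ring
      exact le_of_mul_le_mul_left h7 h6
    have h5 : A * 8 ^ m ≤ B := by
      have h6 := hfirst m hmin
      have h7 := (h m (by omega)).1
      have e2 : (64 : ℝ) ^ m = 8 ^ m * 8 ^ m := by rw [← mul_pow]; norm_num
      rw [e2] at h7
      have h8 : (0 : ℝ) < 8 ^ m := by positivity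
      have h9 : 8 ^ m * (A * 8 ^ m) ≤ 8 ^ m * B := by
        calc 8 ^ m * (A * 8 ^ m) = A * (8 ^ m * 8 ^ m) := by ring
          _ ≤ 8 ^ m * B := h7.trans h6
      exact le_of_mul_le_mul_left h9 h8
    have h6 : (64 : ℝ) ^ k < 4 ^ K := by
      have := h4.trans_lt hB
      exact lt_of_mul_lt_mul_left this hA.le
    have h7 : (8 : ℝ) ^ m < 4 ^ K := by
      have := h5.trans_lt hB
      exact lt_of_mul_lt_mul_left this hA.le
    have h8 : (64 : ℝ) ^ K = 64 ^ k * (8 ^ m * 8 ^ m) := by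
      rw [← mul_pow, hk, pow_add]
      norm_num
      ring
    have h9 : (64 : ℝ) ^ K = 4 ^ K * (4 ^ K * 4 ^ K) := by
      rw [← mul_pow, ← mul_pow]
      norm_num
    have h10 : (8 : ℝ) ^ m * 8 ^ m < 4 ^ K * 4 ^ K :=
      mul_lt_mul'' h7 h7 (by positivity) (by positivity)
    have h11 : (64 : ℝ) ^ k * (8 ^ m * 8 ^ m) < 4 ^ K * (4 ^ K * 4 ^ K) :=
      mul_lt_mul'' h6 h10 (by positivity) (by positivity)
    rw [← h8, ← h9] at h11
    exact lt_irrefl _ h11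

/-- The regular scale in a window `[n ^ (-d), n ^ (-d + t)]`. -/
theorem scale {κ : ℝ → ℝ} {N d t s : ℝ} (hN : 1 ≤ N) (hst : 2 * s ≤ t) (htd : t < d)
    (hbig : 64 < N ^ t)
    (h : ∀ x : ℝ, N ^ (-d) ≤ x → x ≤ 1 → N ^ (1 - s) * x ^ 6 ≤ κ x ∧ κ x ≤ N ^ (1 + s) * x ^ 6) :
    ∃ x : ℝ, N ^ (-d) ≤ x ∧ x ≤ N ^ (-d + t) ∧ 8 * κ (x / 2) ≤ κ x ∧ κ (2 * x) ≤ 4096 * κ x ∧
      N ^ (1 - s) * x ^ 6 ≤ κ x := by
  have hN0 : 0 < N := by linarith
  -- the number of scales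
  obtain ⟨K, hK1, hK2⟩ : ∃ K : ℕ, (2 : ℝ) ^ (K + 1) ≤ N ^ t ∧ N ^ t < 2 ^ (K + 2) := by
    have h1 : ∃ j : ℕ, N ^ t < 2 ^ j := pow_unbounded_of_one_lt _ (by norm_num)
    classical
    have h2 := Nat.find_spec h1
    have h3 : 7 ≤ Nat.find h1 := by
      by_contra hc
      have h4 : (2 : ℝ) ^ (Nat.find h1) ≤ 2 ^ 6 := by
        refine pow_le_pow_right₀ (by norm_num) (by omega)
      have : (2 : ℝ) ^ 6 = 64 := by norm_num
      linarith
    refine ⟨Nat.find h1 - 2, ?_, ?_⟩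
    · have h4 := Nat.find_min h1 (m := Nat.find h1 - 1) (by omega)
      have e : Nat.find h1 - 2 + 1 = Nat.find h1 - 1 := by omega
      rw [e]
      exact not_lt.1 h4
    · have e : Nat.find h1 - 2 + 2 = Nat.find h1 := by omega
      rw [e]
      exact h2
  obtain ⟨y, hy⟩ : ∃ y, y = N ^ (-d) := ⟨_, rfl⟩
  have hy0 : 0 < y := by rw [hy]; positivity
  have hle1 : N ^ (-d + t) ≤ 1 := Real.rpow_le_one_of_one_le_of_nonpos hN (by linarith)
  have hyt : y * N ^ t = N ^ (-d + t) := by rw [hy, ← Real.rpow_add hN0]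
  have hj : ∀ j, j ≤ K + 1 → y ≤ y * 2 ^ j ∧ y * 2 ^ j ≤ N ^ (-d + t) := by
    intro j hj
    have h1 : (1 : ℝ) ≤ 2 ^ j := one_le_pow₀ (by norm_num)
    have h2 : (2 : ℝ) ^ j ≤ 2 ^ (K + 1) := pow_le_pow_right₀ (by norm_num) hj
    constructor
    · nlinarith
    · rw [← hyt]
      exact mul_le_mul_of_nonneg_left (h2.trans hK1) hy0.le
  have hB : N ^ (1 + s) * y ^ 6 < N ^ (1 - s) * y ^ 6 * 4 ^ K := by
    have e1 : N ^ (1 + s) = N ^ (1 - s) * N ^ (2 * s) := by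
      rw [← Real.rpow_add hN0]
      congr 1
      ring
    have e2 : N ^ (2 * s) ≤ N ^ t := Real.rpow_le_rpow_of_exponent_le hN hst
    have e3 : N ^ t < 4 ^ K := by
      have h5 : (64 : ℝ) < 2 ^ (K + 2) := hbig.trans hK2
      have h6 : (16 : ℝ) < 2 ^ K := by
        have : (2 : ℝ) ^ (K + 2) = 4 * 2 ^ K := by ring
        linarith
      have h7 : (4 : ℝ) ^ K = 2 ^ K * 2 ^ K := by rw [← mul_pow]; norm_num
      have h8 : (2 : ℝ) ^ (K + 2) = 4 * 2 ^ K := by ring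
      rw [h7]
      nlinarith
    have e4 : 0 < N ^ (1 - s) * y ^ 6 := by positivity
    calc N ^ (1 + s) * y ^ 6 = N ^ (1 - s) * y ^ 6 * N ^ (2 * s) := by rw [e1]; ring
      _ < N ^ (1 - s) * y ^ 6 * 4 ^ K := mul_lt_mul_of_pos_left (e2.trans_lt e3) e4
  obtain ⟨i, hi, h8, h4096⟩ := dyadic (f := fun j => κ (y * 2 ^ j)) (A := N ^ (1 - s) * y ^ 6)
    (B := N ^ (1 + s) * y ^ 6) (K := K) (by positivity) (fun j hjK => by
      obtain ⟨h1, h2⟩ := hj j hjK
      obtain ⟨h3, h4⟩ := h (y * 2 ^ j) (by rw [← hy]; exact h1) (h2.trans hle1)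
      have e1 : (y * 2 ^ j) ^ 6 = y ^ 6 * 64 ^ j := by
        rw [mul_pow, ← pow_mul, mul_comm j 6, pow_mul]
        norm_num
      rw [e1] at h3 h4
      constructor
      · linarith
      · linarith) hB
  have e1 : y * 2 ^ (i + 1) / 2 = y * 2 ^ i := by rw [pow_succ]; ring
  have e2 : 2 * (y * 2 ^ (i + 1)) = y * 2 ^ (i + 2) := by ring
  obtain ⟨h1, h2⟩ := hj (i + 1) (by omega)
  refine ⟨y * 2 ^ (i + 1), by rw [← hy]; exact h1, h2, ?_, ?_, ?_⟩
  · rw [e1]; exact h8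
  · rw [e2]; exact h4096
  · exact (h _ (by rw [← hy]; exact h1) (h2.trans hle1)).1

/-- The regular scale in a window `[x₀, 2 ^ (K + 1) x₀]`. -/
theorem scaleL {κ : ℝ → ℝ} {A B x₀ : ℝ} {K : ℕ} (hA : 0 < A) (hB : B < A * 4 ^ K) (hx₀ : 0 < x₀)
    (h : ∀ x : ℝ, x₀ ≤ x → x ≤ x₀ * 2 ^ (K + 1) → A * x ^ 6 ≤ κ x ∧ κ x ≤ B * x ^ 6) :
    ∃ x : ℝ, x₀ ≤ x ∧ x ≤ x₀ * 2 ^ (K + 1) ∧ 8 * κ (x / 2) ≤ κ x ∧ κ (2 * x) ≤ 4096 * κ x ∧
      A * x ^ 6 ≤ κ x := by
  have hj : ∀ j, j ≤ K + 1 → x₀ ≤ x₀ * 2 ^ j ∧ x₀ * 2 ^ j ≤ x₀ * 2 ^ (K + 1) := by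
    intro j hj
    have h1 : (1 : ℝ) ≤ 2 ^ j := one_le_pow₀ (by norm_num)
    have h2 : (2 : ℝ) ^ j ≤ 2 ^ (K + 1) := pow_le_pow_right₀ (by norm_num) hj
    constructor
    · nlinarith
    · exact mul_le_mul_of_nonneg_left h2 hx₀.le
  obtain ⟨i, hi, h8, h4096⟩ := dyadic (f := fun j => κ (x₀ * 2 ^ j)) (A := A * x₀ ^ 6)
    (B := B * x₀ ^ 6) (K := K) (by positivity) (fun j hjK => by
      obtain ⟨h1, h2⟩ := hj j hjK
      obtain ⟨h3, h4⟩ := h (x₀ * 2 ^ j) h1 h2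
      have e1 : (x₀ * 2 ^ j) ^ 6 = x₀ ^ 6 * 64 ^ j := by
        rw [mul_pow, ← pow_mul, mul_comm j 6, pow_mul]
        norm_num
      rw [e1] at h3 h4
      constructor
      · linarith
      · linarith) (by
      calc B * x₀ ^ 6 < A * 4 ^ K * x₀ ^ 6 := mul_lt_mul_of_pos_right hB (by positivity)
        _ = A * x₀ ^ 6 * 4 ^ K := by ring)
  have e1 : x₀ * 2 ^ (i + 1) / 2 = x₀ * 2 ^ i := by rw [pow_succ]; ring
  have e2 : 2 * (x₀ * 2 ^ (i + 1)) = x₀ * 2 ^ (i + 2) := by ring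
  obtain ⟨h1, h2⟩ := hj (i + 1) (by omega)
  refine ⟨x₀ * 2 ^ (i + 1), h1, h2, ?_, ?_, ?_⟩
  · rw [e1]; exact h8
  · rw [e2]; exact h4096
  · exact (h _ h1 h2).1

end Vale.Agent.P150.H281
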